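import Vale.Agent.P011UF2.Kit
import Vale.Agent.P011UF2C.Blk

/-!
The cocharacter of an idempotent of rank three.
-/

set_option autoImplicit false
set_option linter.all false

namespace Vale.Agent.P011UF2M

open Matrix Vale.Agent.P011L Vale.Agent.P011LE Vale.Agent.P183CH Vale.Agent.P011U
  Vale.Agent.P011UP Vale.Agent.P011UQ Vale.Agent.P011UF2 Vale.Agent.P011UF2C

variable {k K : Type} [Field k] [Field K] [Algebra k K] {D : Chev}

/-- the standard idempotent -/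
def P3 (K : Type) [Field K] : Matrix (Fin 6) (Fin 6) K := diagonal ![1, 1, 1, 0, 0, 0]

/-- the standard cocharacter -/
def dg (t : Kˣ) : SA K 6 := mkS (diagonal ![(t : K), t, t, t⁻¹, t⁻¹, t⁻¹]) (by
  rw [det_diagonal, Fin.prod_univ_six]
  simp)

theorem dg_val (t : Kˣ) : (dg t).1.1 = (t : K) • P3 K + (t : K)⁻¹ • (1 - P3 K) := by
  show diagonal _ = _
  rw [P3, ← diagonal_one, diagonal_sub, ← diagonal_smul, ← diagonal_smul, diagonal_add]
  refine congrArg diagonal (funext fun a => ?_)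
  fin_cases a <;> simp

theorem ex_Y {E : Matrix (Fin 6) (Fin 6) K} (h : E * E = E) (r : E.rank = 3) :
    ∃ Y : SA K 6, E = Y.1.1 * P3 K * Y⁻¹.1.1 := by
  let e : Fin 3 ⊕ Fin 3 ≃ Fin 6 := finSumFinEquiv
  obtain ⟨y, hy⟩ := ex_nf (E := E.submatrix e e) (by rw [submatrix_mul_equiv, h])
    (by rw [rank_submatrix, r])
  have hP : (fromBlocks 1 0 0 0 : Matrix (Fin 3 ⊕ Fin 3) (Fin 3 ⊕ Fin 3) K).submatrix e.symm
      e.symm = P3 K := by
    ext a b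
    fin_cases a <;> fin_cases b <;> rfl
  have h1 : E * (re e.symm y).1 = (re e.symm y).1 * P3 K := by
    have := congrArg (fun A => A.submatrix e.symm e.symm) hy
    simp only [← submatrix_mul_equiv _ _ _ e.symm, hP, submatrix_submatrix, e.self_comp_symm,
      submatrix_id_id] at this
    exact this
  generalize re e.symm y = Y at h1
  refine ⟨mkS (Y.1 * diagonal (Pi.mulSingle 0 Y.1.det⁻¹)) (by
    rw [det_mul, det_diagonal, Fintype.prod_pi_mulSingle', mul_inv_cancel₀ (det_ne Y)]), ?_⟩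
  refine (Units.eq_mul_inv_iff_mul_eq _).2 ?_
  rw [mkS_val, ← mul_assoc, h1, mul_assoc, mul_assoc, P3, diagonal_mul_diagonal,
    diagonal_mul_diagonal]
  simp only [mul_comm]

theorem cj_val (Y : SA K 6) (t : Kˣ) : (Y * dg t * Y⁻¹).1.1 =
    (t : K) • (Y.1.1 * P3 K * Y⁻¹.1.1) + (t : K)⁻¹ • (1 - Y.1.1 * P3 K * Y⁻¹.1.1) := by
  have e : Y.1.1 * Y⁻¹.1.1 = 1 := Y.1.mul_inv
  show Y.1.1 * (dg t).1.1 * Y⁻¹.1.1 = _
  simp only [dg_val, mul_add, add_mul, mul_smul_comm, smul_mul_assoc, mul_sub, sub_mul, mul_one, e]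

theorem dg_inv (t : Kˣ) : (dg t)⁻¹ = dg t⁻¹ := inv_eq_of_mul_eq_one_right
  (Subtype.ext (Units.ext (by
    show diagonal _ * diagonal _ = 1
    rw [diagonal_mul_diagonal, ← diagonal_one]
    refine congrArg diagonal (funext fun a => ?_)
    fin_cases a <;> simp)))

theorem map_cb (σ : K ≃ₐ[k] K) (a b : K) (E : Matrix (Fin 6) (Fin 6) K) :
    (a • E + b • (1 - E)).map σ = σ a • E.map σ + σ b • (1 - E.map σ) := by
  ext i j
  by_cases h : i = j <;> simp [h, one_apply]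

variable {T : Tw k (SA K 6)} {o ε : (K ≃ₐ[k] K) →* ℤˣ} {M : (K ≃ₐ[k] K) → GL (Fin 6) K}

theorem act_val (h : Rp o T M) (Y : SA K 6) (σ : K ≃ₐ[k] K) (t : Kˣ) :
    (T.a σ (Y * dg t * Y⁻¹)).1.1 = σ t • ac o M σ (Y.1.1 * P3 K * Y⁻¹.1.1) +
      (σ t)⁻¹ • (1 - ac o M σ (Y.1.1 * P3 K * Y⁻¹.1.1)) := by
  have e : (M σ).1 * (M σ)⁻¹.1 = 1 := (M σ).mul_inv
  rw [eq_mul_inv_of_mul_eq (h σ _), Units.val_mul, Units.val_mul]
  by_cases s : o σ = 1
  · rw [st_in s, cj_val, map_cb, ac, if_pos s, map_inv₀]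
    simp only [mul_add, add_mul, mul_smul_comm, smul_mul_assoc, mul_sub, sub_mul, mul_one, e]
  · rw [st_out s, show (Y * dg t * Y⁻¹).1⁻¹ = (Y * dg t⁻¹ * Y⁻¹).1 by
      rw [← dg_inv, ← conj_inv]; rfl, cj_val, map_cb, ac, if_neg s, add_comm]
    simp only [mul_add, add_mul, mul_smul_comm, smul_mul_assoc, mul_sub, sub_mul, mul_one, e,
      transpose_add, transpose_smul, transpose_sub, transpose_one, Units.val_inv_eq_inv_val,
      inv_inv, map_inv₀, sub_sub_cancel]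

theorem key0 (h : Rp o T M) {E : Matrix (Fin 6) (Fin 6) K} (hE : Id3 o M ε E) :
    ∃ Y : SA K 6, ∀ σ t, T.a σ (Y * dg t * Y⁻¹) = Y * dg (um σ t ^ (ε σ : ℤ)) * Y⁻¹ := by
  obtain ⟨Y, hY⟩ := ex_Y hE.1 hE.2.1
  refine ⟨Y, fun σ t => Subtype.ext (Units.ext ?_)⟩
  rw [act_val h, cj_val, ← hY, hE.2.2]
  rcases Int.units_eq_one_or (ε σ) with s | s <;> rw [s]
  · rw [if_pos rfl, Units.val_one, zpow_one]
    rfl
  · rw [if_neg (by decide), add_comm, sub_sub_cancel]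
    simp

/-- The hypothesis of the step of type `A₂`. -/
theorem key {T₀ : Tw k (D.grp K)} {e : Fin D.R.r ≃ Fin 6} {φ : SA K 6 →* D.grp K}
    (hφ : ∀ σ x, T₀.a σ (φ x) = φ (T.a σ x))
    (hl : ∀ (x : SA K 6) (t : Kˣ), x.1.1 = diagonal ![(t : K), t, t, t⁻¹, t⁻¹, t⁻¹] →
      φ x = co GG_ok (lam e) t) (h : Rp o T M) {E : Matrix (Fin 6) (Fin 6) K}
    (hE : Id3 o M ε E) : ∃ Y : SA K 6, ∀ σ t, T₀.a σ (φ Y * co GG_ok (lam e) t * (φ Y)⁻¹) =
      φ Y * co GG_ok (lam e) (um σ t) ^ (ε σ : ℤ) * (φ Y)⁻¹ := by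
  obtain ⟨Y, hY⟩ := key0 h hE
  refine ⟨Y, fun σ t => ?_⟩
  rw [← map_zpow, ← hl (dg t) t rfl, ← hl (dg _) _ rfl, ← map_inv, ← map_mul, ← map_mul, hφ, hY,
    map_mul, map_mul]

end Vale.Agent.P011UF2M
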