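import Vale.Agent.P011UF2.Kit
import Vale.Agent.P011UC.Main
import Vale.Agent.P011UNC.Nc

/-!
Rational points of stable Levi subgroups: centralisers.
-/

set_option autoImplicit false
set_option linter.all false

namespace Vale.Agent.P011UF2M

open Matrix Vale.Agent.P011L Vale.Agent.P183CH Vale.Agent.P011U Vale.Agent.P011UF
  Vale.Agent.P011UF2

variable {k K : Type} [Field k] [Field K] [Algebra k K] {D : Chev}

/-- An element which commutes with the rational points of a stable connected Levi factor commutes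
with the factor. -/
theorem cenI [Infinite k] [IsSepClosure k K] (hD : SC D) {m : ℕ} (ι : Fin m ↪ Fin D.R.r)
    (hm : 0 < m) (hc : ∀ (P : Fin m → Prop) (i j : Fin m), P i →
      (∀ i j, P i → D.R.A (ι j) (ι i) ≠ 0 → P j) → P j) {T : Tw k (D.grp K)}
    (hS : ∀ s, ∀ g ∈ LJ (GG D K) (Set.range ι), T.a s g ∈ LJ (GG D K) (Set.range ι))
    {z : D.grp K} (hz : z ∈ LJ (GG D K) (Set.range ι)) (hf : z ∈ T.fix)
    (h : ∀ g ∈ T.fix, g ∈ LJ (GG D K) (Set.range ι) → z * g = g * z) :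
    ∀ g ∈ LJ (GG D K) (Set.range ι), z * g = g * z := fun g hg => by
  obtain ⟨D', e', h1, h2, h3⟩ := P011U.sub D hD m ι hm hc
  obtain ⟨φ, p1, p2, -⟩ := h3 K
  let T' := P011UC.tr (rst T _ hS) φ.symm p2 p1
  have f : ∀ x : D'.grp K, x ∈ T'.fix ↔ up _ (φ x) ∈ T.fix := fun x =>
    forall_congr' fun σ => ⟨fun e => congrArg (up _) (φ.symm_apply_eq.1 e),
      fun e => φ.symm_apply_eq.2 (up_inj _ e)⟩
  have u : ∀ x ∈ LJ (GG D K) (Set.range ι), ∃ y, up _ (φ y) = x := fun x hx =>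
    ⟨φ.symm ⟨x.1, x, hx, rfl⟩, congrArg (up _) (φ.apply_symm_apply _)⟩
  obtain ⟨z, rfl⟩ := u z hz
  obtain ⟨g, rfl⟩ := u g hg
  have := P011UNC.cent_of T' (P011UC.den0 k K D' h1 T') (z := ⟨z, (f z).2 hf⟩)
    (Subgroup.mem_center_iff.2 fun x => Subtype.ext (φ.injective (up_inj _ (by
      have := h _ ((f x).1 x.2) (up_mem _ _)
      simpa only [Subgroup.coe_mul, map_mul] using this.symm)))) g
  simpa only [map_mul] using congrArg (fun x => up _ (φ x)) this

theorem cenJ [Infinite k] [IsSepClosure k K] (hD : SC D) {e : Fin D.R.r ≃ Fin 6}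
    (he : Ty D.R CartanMatrix.E₆ e) {T : Tw k (D.grp K)}
    (hS : ∀ s, ∀ g ∈ LJ (GG D K) (J0 e), T.a s g ∈ LJ (GG D K) (J0 e))
    {z : D.grp K} (hz : z ∈ LJ (GG D K) (J0 e)) (hf : z ∈ T.fix)
    (h : ∀ g ∈ T.fix, g ∈ LJ (GG D K) (J0 e) → z * g = g * z) :
    ∀ g ∈ LJ (GG D K) (J0 e), z * g = g * z := by
  rw [← io_range] at hS hz h ⊢
  exact cenI hD (io e) (by decide) (fun P i j h h1 =>
    connA P i j h fun i j a b => h1 i j a (io_A he j i ▸ b)) hS hz hf h

end Vale.Agent.P011UF2M
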